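import Vale.Agent.Lib.P262.Lower3Cert
import Vale.Agent.Lib.P262.Upper3

open Vale.Agent.Lib.P262

namespace Vale.Agent.Results.P262.SigmaDimThree

/-- Bounds for the signed-initial-sum constant: `σ(d) ≥ √(d+1)` for `d ≥ 2`,
`σ(d) ≥ √(d+1.31)` for `d ≥ 3`, `σ(2) = √3`, and `σ(3) ≤ √6`. -/
theorem result :
    (∀ d : ℕ, 2 ≤ d → ENNReal.ofReal (Real.sqrt ((d : ℝ) + 1)) ≤ sigma d) ∧
    (∀ d : ℕ, 3 ≤ d → ENNReal.ofReal (Real.sqrt ((d : ℝ) + 131 / 100)) ≤ sigma d) ∧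
    sigma 2 = ENNReal.ofReal (Real.sqrt 3) ∧
    sigma 3 ≤ ENNReal.ofReal (Real.sqrt 6) := by
  refine ⟨sqrt_le_sigma, sqrt_le_sigma3, le_antisymm sigma_two_le ?_, sigma_three_le⟩
  have := sqrt_le_sigma 2 le_rfl
  norm_num at this
  exact this

end Vale.Agent.Results.P262.SigmaDimThree
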