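import Vale.Agent.Lib.P262.Lower2
import Vale.Agent.Lib.P262.Upper2

open Vale.Agent.Lib.P262

namespace Vale.Agent.Results.P262.SigmaLowerPlaneExact

/-- The signed-initial-sum constant satisfies `σ(d) ≥ √(d+1)` for every `d ≥ 2`, and `σ(2) = √3`. -/
theorem result :
    (∀ d : ℕ, 2 ≤ d → ENNReal.ofReal (Real.sqrt ((d : ℝ) + 1)) ≤ sigma d) ∧
      sigma 2 = ENNReal.ofReal (Real.sqrt 3) := by
  refine ⟨sqrt_le_sigma, le_antisymm sigma_two_le ?_⟩
  have := sqrt_le_sigma 2 le_rfl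
  norm_num at this
  exact this

end Vale.Agent.Results.P262.SigmaLowerPlaneExact
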