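import Vale.Agent.Lib.P262.Lower3Cert
import Vale.Agent.Lib.P262.StFinal

open Vale.Agent.Lib.P262

namespace Vale.Agent.Results.P262.SteinitzDimFour

/-- The Euclidean Steinitz constant in dimension four: `S_2(4) ≤ √10 < 13/4 = 4 - 1 + 1/4`.
Together with the bounds for the signed-initial-sum constant: `σ(4) ≤ √10`, `σ(3) ≤ √6`, `σ(2) = √3`,
`σ(d) ≥ √(d+1)` for `d ≥ 2`, `σ(d) ≥ √(d+1.31)` for `d ≥ 3`. -/
theorem result :
    steinitz 4 ≤ ENNReal.ofReal (Real.sqrt 10) ∧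
    Real.sqrt 10 < 4 - 1 + 1 / 4 ∧
    sigma 4 ≤ ENNReal.ofReal (Real.sqrt 10) ∧
    sigma 3 ≤ ENNReal.ofReal (Real.sqrt 6) ∧
    sigma 2 = ENNReal.ofReal (Real.sqrt 3) ∧
    (∀ d : ℕ, 2 ≤ d → ENNReal.ofReal (Real.sqrt ((d : ℝ) + 1)) ≤ sigma d) ∧
    (∀ d : ℕ, 3 ≤ d → ENNReal.ofReal (Real.sqrt ((d : ℝ) + 131 / 100)) ≤ sigma d) := by
  refine ⟨steinitz_four_le, ?_, sigma_four_le, sigma_three_le, le_antisymm sigma_two_le ?_,
    sqrt_le_sigma, sqrt_le_sigma3⟩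
  · rw [Real.sqrt_lt' (by norm_num)]
    norm_num
  · have := sqrt_le_sigma 2 le_rfl
    norm_num at this
    exact this

end Vale.Agent.Results.P262.SteinitzDimFour
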